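import Vale.Agent.P116.AD.Spec
import Vale.Agent.P116.KB.HDef

/-!
P116, block [7]: the region, the energy sums and the boundary sums for honest functions, in the
form used by the assembly (helper720).
-/

open Set Filter Topology Metric Bornology MeasureTheory

namespace Vale.Agent.P116.AD.H720

open H906
open KB720 (cell un clo chi bdc Tk Flat)

/-- the upper gradient inequality restricts to subsets -/
lemma maj_of_ugr {K w : Set ℂ} {u ρ : ℂ → ℝ} (h : KF.UGr Kᶜ u ρ) : KB720.Maj (w \ K) u ρ :=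
  fun z z' hs M hM => h z z' (hs.trans fun _ hx => hx.2) M hM

lemma fin_of_hon {K w : Set ℂ} {u ρ : ℂ → ℝ} (hw : IsCompact w) (h : KB.Hon K w u ρ) :
    ∫⁻ z in w \ K, (ENNReal.ofReal (ρ z ^ 2) + 1) ≠ ⊤ := by
  rw [lintegral_add_right _ measurable_const, setLIntegral_one]
  exact ENNReal.add_ne_top.2 ⟨h.en.ne,
    ((measure_mono sdiff_subset).trans_lt hw.measure_lt_top).ne⟩

/-- the part of `K` in a set with frontier off `K` is in the interior -/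
lemma inter_subset_interior {K w : Set ℂ} (hfr : Disjoint (frontier w) K) :
    K ∩ w ⊆ interior w := by
  rintro z ⟨hzK, hzw⟩
  by_contra h
  exact disjoint_left.1 hfr ⟨subset_closure hzw, h⟩ hzK

/-- the cells of `Tk` and of `bdc` are in the complement of `K` -/
lemma cell_bdc {K : Set ℂ} {d₀ : ℝ} (hd : 0 < d₀) {D : Finset (ℤ × ℤ)}
    (hD : ∀ V, V ∉ D → (cell d₀ V ∩ un d₀ D).Nonempty → Disjoint (cell d₀ V) K) {k : ℕ}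
    {v : ℤ × ℤ} (hv : v ∈ bdc d₀ D k) : cell (d₀ / 2 ^ k) v ⊆ Kᶜ := by
  have hsub := KB720.cell_subset_par hd k v
  obtain ⟨⟨z, hz, hzD⟩, hnot⟩ := hv
  have h1 : KB720.par k v ∉ D := fun h => hnot (hsub.trans
    (subset_biUnion_of_mem (u := fun V => cell d₀ V) h))
  have h2 := hD _ h1 ⟨z, hsub hz, hzD⟩
  exact fun x hx hxK => disjoint_left.1 h2 (hsub hx) hxK

/-- cells off the nodes are in `Tk` or `bdc` if the mesh is small (hypothesis of `RowTri`) -/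
theorem evt {ι : Type*} [Finite ι] {K w : Set ℂ} (hK : IsCompact K) {r : ι → ℂ → ℝ}
    (hr : ∀ i, ContinuousOn (r i) Kᶜ) {d₀ : ℝ} (hd : 0 < d₀) {D : Finset (ℤ × ℤ)}
    (hD : un d₀ D ⊆ interior w) {QQ : Finset (Set ℂ)} (hcov : K ∩ w ⊆ ⋃ Q ∈ QQ, interior Q) :
    ∀ᶠ k : ℕ in atTop, ∀ v : ℤ × ℤ,
      (cell (d₀ / 2 ^ k) v ∩ (un d₀ D \ ⋃ Q ∈ QQ, interior Q)).Nonempty →
      v ∈ Tk K r d₀ D k ∨ v ∈ bdc d₀ D k := by
  have hO : IsOpen (⋃ Q ∈ QQ, interior Q) := isOpen_biUnion fun Q _ => isOpen_interior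
  refine KB720.evt_Tk (w := w) hK.isClosed (fun i => (hr i).mono fun z hz => hz.2) hd D hD
    ((KB720.isCompact_un d₀ D).diff hO) ?_
  rintro z ⟨hz, hzn⟩
  exact ⟨hz, fun hzK => hzn (hcov ⟨hzK, interior_subset (hD hz)⟩)⟩

/-- the energy bound of a node -/
noncomputable def An {ι : Type*} [Fintype ι] (K w : Set ℂ) (r : ι → ℂ → ℝ) : ℝ :=
  Fintype.card ι * (2 * ∑ i, (∫⁻ z in w \ K, (ENNReal.ofReal (r i z ^ 2) + 1)).toReal)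

lemma An_nonneg {ι : Type*} [Fintype ι] (K w : Set ℂ) (r : ι → ℂ → ℝ) : 0 ≤ An K w r := by
  unfold An
  positivity

/-- **the package for honest functions on a compact `w` with frontier off `K`** -/
theorem packA {ι : Type*} [Fintype ι] [DecidableEq ι] {K w : Set ℂ} (hK : IsCompact K)
    (hw : IsCompact w) (hfr : Disjoint (frontier w) K) {u r : ι → ℂ → ℝ}
    (h : ∀ i, KB.Hon K w (u i) (r i)) :
    ∃ d₀ > 0, ∃ D : Finset (ℤ × ℤ), ∃ Bd : ℝ,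
      (∀ V, V ∈ D ↔ (cell d₀ V ∩ (K ∩ w)).Nonempty) ∧
      K ∩ w ⊆ interior (un d₀ D) ∧ un d₀ D ⊆ interior w ∧
      (∀ V, V ∉ D → (cell d₀ V ∩ un d₀ D).Nonempty → Disjoint (cell d₀ V) K) ∧
      (∀ k, (Tk K r d₀ D k).Finite) ∧ (∀ k, (bdc d₀ (D : Set (ℤ × ℤ)) k).Finite) ∧
      (∀ k, ∀ v ∈ Tk K r d₀ D k, ∀ i, clo (u i) (d₀ / 2 ^ k) v ≤ chi (u i) (d₀ / 2 ^ k) v) ∧
      (∀ k, ∀ v ∈ bdc d₀ (D : Set (ℤ × ℤ)) k, ∀ i,
        clo (u i) (d₀ / 2 ^ k) v ≤ chi (u i) (d₀ / 2 ^ k) v) ∧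
      (∀ k, ∀ T : Finset (ℤ × ℤ), (∀ v ∈ T, v ∈ Tk K r d₀ D k) →
        ∑ v ∈ T, ∑ i, ∑ j ∈ Finset.univ.erase i,
          (chi (u i) (d₀ / 2 ^ k) v - clo (u i) (d₀ / 2 ^ k) v) *
          (chi (u j) (d₀ / 2 ^ k) v - clo (u j) (d₀ / 2 ^ k) v) ≤ An K w r) ∧
      (∀ k, ∀ T : Finset (ℤ × ℤ), (∀ v ∈ T, v ∈ bdc d₀ (D : Set (ℤ × ℤ)) k) →
        ∑ v ∈ T, ∑ i, (chi (u i) (d₀ / 2 ^ k) v - clo (u i) (d₀ / 2 ^ k) v) ≤ Bd) ∧
      (∀ QQ : Finset (Set ℂ), K ∩ w ⊆ ⋃ Q ∈ QQ, interior Q →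
        ∀ᶠ k : ℕ in atTop, ∀ v : ℤ × ℤ,
          (cell (d₀ / 2 ^ k) v ∩ (un d₀ D \ ⋃ Q ∈ QQ, interior Q)).Nonempty →
          v ∈ Tk K r d₀ D k ∨ v ∈ bdc d₀ (D : Set (ℤ × ℤ)) k) := by
  have hsub : K ∩ w ⊆ interior w := inter_subset_interior hfr
  obtain ⟨d₀, hd, D, h1, h2, h3, h4, h5, Bd, h6⟩ := KB720.package (K := K) (w := w) (u := u)
    (ρ := r) (hK.inter_right hw.isClosed) hsub (fun i => (h i).rc.mono fun z hz => hz.2)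
    (fun i => maj_of_ugr (h i).maj) (fun i => fin_of_hon hw (h i))
  have hD : un d₀ D ⊆ interior w := by
    refine iUnion₂_subset fun V hV => h3 V ?_
    obtain ⟨z, hz⟩ := KB720.cell_nonempty hd.le V
    exact ⟨z, hz, mem_iUnion₂.2 ⟨V, hV, hz⟩⟩
  have hT : ∀ k, ∀ v ∈ Tk K r d₀ D k, ∀ i, ContinuousOn (u i) (cell (d₀ / 2 ^ k) v) :=
    fun k v hv i => (h i).cont.mono fun z hz => (hv.1 hz).2
  have hB : ∀ k, ∀ v ∈ bdc d₀ (D : Set (ℤ × ℤ)) k, ∀ i,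
      ContinuousOn (u i) (cell (d₀ / 2 ^ k) v) :=
    fun k v hv i => (h i).cont.mono (cell_bdc hd h4 hv)
  have hp : ∀ k : ℕ, 0 ≤ d₀ / 2 ^ k := fun k => by positivity
  refine ⟨d₀, hd, D, Bd, h1, h2, hD, h4, KB720.finite_Tk K r hd D, KB720.finite_bdc hd D,
    fun k v hv i => KB720.clo_le_chi (hp k) (hT k v hv i),
    fun k v hv i => KB720.clo_le_chi (hp k) (hB k v hv i), fun k T hTk => ?_, fun k T hTk => ?_,
    fun QQ hQ => evt hK (fun i => (h i).rc) hd hD hQ⟩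
  · refine le_trans (le_of_eq ?_) (h5 k T hTk)
    refine Finset.sum_congr rfl fun v hv => Finset.sum_congr rfl fun i _ =>
      Finset.sum_congr rfl fun j _ => ?_
    rw [KB720.chi_sub_clo (hT k v (hTk v hv) i), KB720.chi_sub_clo (hT k v (hTk v hv) j)]
  · refine le_trans (le_of_eq ?_) (h6 k T hTk)
    refine Finset.sum_congr rfl fun v hv => Finset.sum_congr rfl fun i _ => ?_
    rw [KB720.chi_sub_clo (hB k v (hTk v hv) i)]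

/-- the package with an unspecified energy bound -/
theorem pack {ι : Type*} [Fintype ι] [DecidableEq ι] {K w : Set ℂ} (hK : IsCompact K)
    (hw : IsCompact w) (hfr : Disjoint (frontier w) K) {u r : ι → ℂ → ℝ}
    (h : ∀ i, KB.Hon K w (u i) (r i)) :
    ∃ d₀ > 0, ∃ D : Finset (ℤ × ℤ), ∃ A Bd : ℝ,
      (∀ V, V ∈ D ↔ (cell d₀ V ∩ (K ∩ w)).Nonempty) ∧
      K ∩ w ⊆ interior (un d₀ D) ∧ un d₀ D ⊆ interior w ∧
      (∀ V, V ∉ D → (cell d₀ V ∩ un d₀ D).Nonempty → Disjoint (cell d₀ V) K) ∧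
      (∀ k, (Tk K r d₀ D k).Finite) ∧ (∀ k, (bdc d₀ (D : Set (ℤ × ℤ)) k).Finite) ∧
      (∀ k, ∀ v ∈ Tk K r d₀ D k, ∀ i, clo (u i) (d₀ / 2 ^ k) v ≤ chi (u i) (d₀ / 2 ^ k) v) ∧
      (∀ k, ∀ v ∈ bdc d₀ (D : Set (ℤ × ℤ)) k, ∀ i,
        clo (u i) (d₀ / 2 ^ k) v ≤ chi (u i) (d₀ / 2 ^ k) v) ∧
      (∀ k, ∀ T : Finset (ℤ × ℤ), (∀ v ∈ T, v ∈ Tk K r d₀ D k) →
        ∑ v ∈ T, ∑ i, ∑ j ∈ Finset.univ.erase i,
          (chi (u i) (d₀ / 2 ^ k) v - clo (u i) (d₀ / 2 ^ k) v) *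
          (chi (u j) (d₀ / 2 ^ k) v - clo (u j) (d₀ / 2 ^ k) v) ≤ A) ∧
      (∀ k, ∀ T : Finset (ℤ × ℤ), (∀ v ∈ T, v ∈ bdc d₀ (D : Set (ℤ × ℤ)) k) →
        ∑ v ∈ T, ∑ i, (chi (u i) (d₀ / 2 ^ k) v - clo (u i) (d₀ / 2 ^ k) v) ≤ Bd) ∧
      (∀ QQ : Finset (Set ℂ), K ∩ w ⊆ ⋃ Q ∈ QQ, interior Q →
        ∀ᶠ k : ℕ in atTop, ∀ v : ℤ × ℤ,
          (cell (d₀ / 2 ^ k) v ∩ (un d₀ D \ ⋃ Q ∈ QQ, interior Q)).Nonempty →
          v ∈ Tk K r d₀ D k ∨ v ∈ bdc d₀ (D : Set (ℤ × ℤ)) k) := by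
  obtain ⟨d₀, hd, D, Bd, h1⟩ := packA hK hw hfr h
  exact ⟨d₀, hd, D, _, Bd, h1⟩

end Vale.Agent.P116.AD.H720
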