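import Vale.Agent.P116.AD.H720.Evt
import Vale.Agent.P116.KF.Spec
import Vale.Agent.P116.KB.OscAPI
import Vale.Agent.P116.Cl.Dset905

/-!
P116, block [7]: from the estimate on one node, with the energy of the node as an error term, to
the adaptation statement `KF.AD` (helper720).
-/

open Set Filter Topology Metric Bornology MeasureTheory

namespace Vale.Agent.P116.AD.H720

open H906 KB PBC Slow

/-- the adaptation statement on one node for the index type `ι`, with an error term `C * An` -/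
def AD1 (ι : Type) [Fintype ι] (C : ℝ) : Prop := ∀ {K : Set ℂ} (_ : IsCompact K) (_ : Full K)
    {n : ℕ} {x : ℂ} (_ : x ∈ K) {u r : ι → ℂ → ℝ} (_ : ∀ i, Hon K (nd K n x) (u i) (r i))
    (_ : ∀ i, KF.SMon K (nd K n x) (u i))
    (_ : ∀ i j, i ≠ j → volume (Zs K (nd K n x) (u i) (u j)) = 0) {δ : ℝ} (_ : 0 < δ),
    ∃ S, G.NS K (nd K n x) S ∧ (∀ y ∈ K, y ∈ nd K n x → ∃ P ∈ S, y ∈ P) ∧
      ∀ i, ∑ᶠ P ∈ S, oscS K (u i) P ^ 2 ≤ Eo K (nd K n x) (u i) + C * An K (nd K n x) r + δ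

/-- the nodes of level `N` inside `w` -/
def NN (K w : Set ℂ) (N : ℕ) : Set (Set ℂ) := {Q | Q ∈ nodes K N ∧ Q ⊆ w}

lemma finite_NN {K : Set ℂ} (hK : IsCompact K) (w : Set ℂ) (N : ℕ) : (NN K w N).Finite :=
  (finite_nodes hK N).subset fun _ h => h.1

lemma NN_disj {K w : Set ℂ} {N : ℕ} {Q Q' : Set ℂ} (h : Q ∈ NN K w N) (h' : Q' ∈ NN K w N)
    (hne : Q ≠ Q') : Disjoint Q Q' := by
  obtain ⟨⟨y, hy, rfl⟩, -⟩ := h
  obtain ⟨⟨y', hy', rfl⟩, -⟩ := h'
  rw [Set.disjoint_left]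
  intro z hz hz'
  exact hne ((nd_eq hz).symm.trans (nd_eq hz'))

/-- the energy of the nodes of level `N` tends to zero -/
theorem exists_level {ι : Type*} [Fintype ι] {K w : Set ℂ} (hK : IsCompact K) (hf : Full K)
    (hw : IsCompact w) {u r : ι → ℂ → ℝ} (h : ∀ i, Hon K w (u i) (r i)) (n : ℕ) {ε : ℝ}
    (hε : 0 < ε) :
    ∃ N ≥ n, ∑ Q ∈ (finite_NN hK w N).toFinset, An K Q r ≤ ε := by
  set f : ι → ℂ → ENNReal := fun i z => ENNReal.ofReal (r i z ^ 2) + 1 with hfdef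
  have hfin : ∀ i, ∫⁻ z in w \ K, f i z ≠ ⊤ := fun i => fin_of_hon hw (h i)
  have hlim : ∀ i, Tendsto (fun k => (∫⁻ z in (lev K k ∩ w) \ K, f i z).toReal) atTop (𝓝 0) := by
    intro i
    have h1 := Cl.tendsto_energy hK hf hw.isClosed (hfin i)
    have h2 := (ENNReal.tendsto_toReal ENNReal.zero_ne_top).comp h1
    rw [ENNReal.toReal_zero] at h2
    exact h2
  have hsum : Tendsto (fun k => (Fintype.card ι : ℝ) *
      (2 * ∑ i, (∫⁻ z in (lev K k ∩ w) \ K, f i z).toReal)) atTop (𝓝 0) := by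
    have h1 := tendsto_finsetSum (Finset.univ : Finset ι) fun i _ => hlim i
    have h2 := (h1.const_mul 2).const_mul (Fintype.card ι : ℝ)
    simpa using h2
  obtain ⟨N, hN, hNn⟩ := ((hsum.eventually_lt_const hε).and (eventually_ge_atTop n)).exists
  refine ⟨N, hNn, le_trans ?_ hN.le⟩
  unfold An
  rw [← Finset.mul_sum, ← Finset.mul_sum]
  refine mul_le_mul_of_nonneg_left (mul_le_mul_of_nonneg_left ?_ (by norm_num)) (by positivity)
  rw [Finset.sum_comm]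
  refine Finset.sum_le_sum fun i _ => ?_
  have hfw : ∀ A ⊆ w, ∫⁻ z in A \ K, f i z ≠ ⊤ := fun A hA =>
    ((lintegral_mono_set (sdiff_subset_sdiff_left hA)).trans_lt (hfin i).lt_top).ne
  rw [← ENNReal.toReal_sum fun Q hQ =>
    hfw Q ((finite_NN hK w N).mem_toFinset.1 hQ).2]
  refine ENNReal.toReal_mono (hfw _ inter_subset_right) ?_
  have hmK : MeasurableSet K := hK.isClosed.measurableSet
  rw [← lintegral_biUnion_finset]
  · refine lintegral_mono_set ?_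
    refine iUnion₂_subset fun Q hQ => ?_
    obtain ⟨⟨y, hy, rfl⟩, hQw⟩ := (finite_NN hK w N).mem_toFinset.1 hQ
    exact sdiff_subset_sdiff_left fun z hz => ⟨nd_subset N y hz, hQw hz⟩
  · intro Q hQ Q' hQ' hne
    exact (NN_disj ((finite_NN hK w N).mem_toFinset.1 hQ)
      ((finite_NN hK w N).mem_toFinset.1 hQ') hne).mono sdiff_subset sdiff_subset
  · intro Q hQ
    obtain ⟨⟨y, hy, rfl⟩, hQw⟩ := (finite_NN hK w N).mem_toFinset.1 hQ
    exact (isCompact_nd hK N y).isClosed.measurableSet.diff hmK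

/-- the total oscillation is additive over the nodes -/
theorem sum_Eo_le {K w : Set ℂ} (hK : IsCompact K) {u ρ : ℂ → ℝ} (h : Hon K w u ρ) (N : ℕ) :
    ∑ Q ∈ (finite_NN hK w N).toFinset, Eo K Q u ≤ Eo K w u := by
  classical
  unfold Eo
  have hs : ∀ Q ∈ (finite_NN hK w N).toFinset, Summable fun c : comps K => oc K Q u c :=
    fun Q hQ => (h.restrict ((finite_NN hK w N).mem_toFinset.1 hQ).2).sum
  rw [← Summable.tsum_finsetSum hs]
  refine Summable.tsum_le_tsum (fun c => ?_) (summable_sum hs) h.sum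
  by_cases hc : ∃ Q ∈ (finite_NN hK w N).toFinset, (c : Set ℂ) ⊆ Q
  · obtain ⟨Q, hQ, hcQ⟩ := hc
    rw [Finset.sum_eq_single_of_mem Q hQ]
    · exact oc_mono ((finite_NN hK w N).mem_toFinset.1 hQ).2 _
    · intro Q' hQ' hne
      refine oc_of_not_sub fun hcQ' => ?_
      obtain ⟨z, hz⟩ := comps_nonempty c.2
      exact Set.disjoint_left.1 (NN_disj ((finite_NN hK w N).mem_toFinset.1 hQ')
        ((finite_NN hK w N).mem_toFinset.1 hQ) hne) (hcQ' hz) (hcQ hz)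
  · push Not at hc
    rw [Finset.sum_eq_zero fun Q hQ => oc_of_not_sub (hc Q hQ)]
    exact oc_nonneg _ _ _ _

/-- **globalization** -/
theorem glob {ι : Type} [Fintype ι] {C : ℝ} (h7 : AD1 ι C) {K : Set ℂ} (hK : IsCompact K)
    (hf : Full K) {n : ℕ} {x : ℂ} {u : ι → ℂ → ℝ}
    (hu : ∀ i, ∃ ρ, Hon K (nd K n x) (u i) ρ) (hm : ∀ i, KF.SMon K (nd K n x) (u i))
    (hz : ∀ i j, i ≠ j → volume (Zs K (nd K n x) (u i) (u j)) = 0) {δ : ℝ} (hδ : 0 < δ) :
    ∃ S, G.NS K (nd K n x) S ∧ (∀ y ∈ K, y ∈ nd K n x → ∃ P ∈ S, y ∈ P) ∧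
      ∀ i, ∑ᶠ P ∈ S, oscS K (u i) P ^ 2 ≤ Eo K (nd K n x) (u i) + δ := by
  classical
  choose r hr using hu
  set w := nd K n x with hw
  have hwc : IsCompact w := isCompact_nd hK n x
  have hC : 0 < 2 * (|C| + 1) := by positivity
  obtain ⟨N, hN, hA⟩ := exists_level hK hf hwc hr n (ε := δ / (2 * (|C| + 1))) (by positivity)
  set F := (finite_NN hK w N).toFinset with hF
  have hFm : ∀ Q, Q ∈ F ↔ Q ∈ NN K w N := fun Q => (finite_NN hK w N).mem_toFinset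
  have h1 : ∀ Q ∈ F, ∃ S, G.NS K Q S ∧ (∀ y ∈ K, y ∈ Q → ∃ P ∈ S, y ∈ P) ∧
      ∀ i, ∑ᶠ P ∈ S, oscS K (u i) P ^ 2 ≤ Eo K Q (u i) + C * An K Q r + δ / (2 * (F.card + 1)) := by
    intro Q hQ
    obtain ⟨⟨y, hy, rfl⟩, hQw⟩ := (hFm Q).1 hQ
    exact h7 hK hf hy (fun i => (hr i).restrict hQw)
      (fun i => SMon_restrict hQw hwc
        ((full_nd hK N y).isPreconnected_compl (isCompact_nd hK N y).isBounded) (hm i))
      (fun i j hij => measure_mono_null (Zs_mono_set hQw _ _) (hz i j hij)) (by positivity)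
  choose! S hS1 hS2 hS3 using h1
  have hpd : (F : Set (Set ℂ)).PairwiseDisjoint S := by
    intro Q hQ Q' hQ' hne
    change Disjoint (S Q) (S Q')
    rw [Set.disjoint_left]
    intro P hP hP'
    obtain ⟨z, hz⟩ := ((hS1 Q hQ).pc P hP).nonempty
    exact Set.disjoint_left.1 (NN_disj ((hFm Q).1 hQ) ((hFm Q').1 hQ') hne)
      ((hS1 Q hQ).sub P hP hz) ((hS1 Q' hQ').sub P hP' hz)
  refine ⟨⋃ Q ∈ (F : Set (Set ℂ)), S Q, ⟨?_, ?_, ?_, ?_⟩, ?_, ?_⟩
  · exact F.finite_toSet.biUnion fun Q hQ => (hS1 Q hQ).fin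
  · intro P hP
    obtain ⟨Q, hQ, hP⟩ := mem_iUnion₂.1 hP
    exact (hS1 Q hQ).pc P hP
  · intro P hP P' hP' hne
    obtain ⟨Q, hQ, hP⟩ := mem_iUnion₂.1 hP
    obtain ⟨Q', hQ', hP'⟩ := mem_iUnion₂.1 hP'
    by_cases hQQ : Q = Q'
    · subst hQQ
      exact (hS1 Q hQ).disj P hP P' hP' hne
    · exact (NN_disj ((hFm Q).1 hQ) ((hFm Q').1 hQ') hQQ).mono ((hS1 Q hQ).sub P hP)
        ((hS1 Q' hQ').sub P' hP')
  · intro P hP
    obtain ⟨Q, hQ, hP⟩ := mem_iUnion₂.1 hP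
    exact ((hS1 Q hQ).sub P hP).trans ((hFm Q).1 hQ).2
  · intro y hyK hyw
    have hQ : nd K N y ∈ F := by
      refine (hFm _).2 ⟨⟨y, hyK, rfl⟩, ?_⟩
      rw [hw, ← nd_eq hyw]
      exact nd_anti hN
    obtain ⟨P, hP, hyP⟩ := hS2 _ hQ y hyK (mem_nd hyK N)
    exact ⟨P, mem_iUnion₂.2 ⟨_, hQ, hP⟩, hyP⟩
  · intro i
    rw [finsum_mem_biUnion hpd F.finite_toSet fun Q hQ => (hS1 Q hQ).fin]
    rw [finsum_mem_coe_finset]
    calc ∑ Q ∈ F, ∑ᶠ P ∈ S Q, oscS K (u i) P ^ 2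
        ≤ ∑ Q ∈ F, (Eo K Q (u i) + |C| * An K Q r + δ / (2 * (F.card + 1))) := by
          refine Finset.sum_le_sum fun Q hQ => (hS3 Q hQ i).trans ?_
          have := mul_le_mul_of_nonneg_right (le_abs_self C) (An_nonneg K Q r)
          linarith
      _ = ∑ Q ∈ F, Eo K Q (u i) + |C| * ∑ Q ∈ F, An K Q r +
            F.card * (δ / (2 * (F.card + 1))) := by
          rw [Finset.sum_add_distrib, Finset.sum_add_distrib, Finset.mul_sum, Finset.sum_const,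
            nsmul_eq_mul]
      _ ≤ Eo K w (u i) + |C| * (δ / (2 * (|C| + 1))) + δ / 2 := by
          have h2 : ∑ Q ∈ F, Eo K Q (u i) ≤ Eo K w (u i) := sum_Eo_le hK (hr i) N
          have h3 := mul_le_mul_of_nonneg_left hA (abs_nonneg C)
          have h4 : (F.card : ℝ) * (δ / (2 * (F.card + 1))) ≤ δ / 2 := by
            rw [mul_div_assoc', div_le_div_iff₀ (by positivity) two_pos]
            nlinarith [(Nat.cast_nonneg F.card : (0:ℝ) ≤ F.card)]
          linarith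
      _ ≤ Eo K w (u i) + δ := by
          have h5 : |C| * (δ / (2 * (|C| + 1))) ≤ δ / 2 := by
            rw [mul_div_assoc', div_le_div_iff₀ hC two_pos]
            nlinarith [abs_nonneg C]
          linarith

/-- the tail of the ends -/
lemma exists_ends {ι : Type} [Fintype ι] {K w : Set ℂ} {u r : ι → ℂ → ℝ}
    (h : ∀ i, Hon K w (u i) (r i)) {V : ℝ} (hV : 0 < V) :
    ∃ F : Finset (Set ℂ), ∀ i, ∀ J : Finset (Set ℂ),
      (∀ c ∈ J, c ∈ comps K ∧ c ⊆ w ∧ c ∉ F) → ∑ c ∈ J, oscC K (u i) c ^ 2 ≤ V := by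
  classical
  have h1 : ∀ i, ∃ s : Finset (comps K), ∀ t : Finset (comps K), Disjoint t s →
      ‖∑ c ∈ t, oc K w (u i) c‖ < V := fun i =>
    summable_iff_vanishing_norm.1 (h i).sum V hV
  choose s hs using h1
  refine ⟨Finset.univ.biUnion fun i => (s i).image Subtype.val, fun i J hJ => ?_⟩
  set t : Finset (comps K) := J.attach.image fun c => ⟨c.1, (hJ c.1 c.2).1⟩ with ht
  have hdis : Disjoint t (s i) := by
    rw [Finset.disjoint_left]
    rintro ⟨c, hc⟩ hct hcs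
    obtain ⟨c', hc', he⟩ := Finset.mem_image.1 hct
    have he' : c'.1 = c := congrArg Subtype.val he
    refine (hJ c'.1 c'.2).2.2 (Finset.mem_biUnion.2 ⟨i, Finset.mem_univ i, ?_⟩)
    rw [he']
    exact Finset.mem_image.2 ⟨⟨c, hc⟩, hcs, rfl⟩
  have h2 : ∑ c ∈ t, oc K w (u i) c = ∑ c ∈ J, oscC K (u i) c ^ 2 := by
    rw [ht, Finset.sum_image]
    · rw [← Finset.sum_attach J]
      exact Finset.sum_congr rfl fun c _ => oc_of_sub (hJ c.1 c.2).2.1
    · intro a _ b _ hab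
      exact Subtype.ext (Subtype.mk.inj hab)
  rw [← h2]
  exact (le_abs_self _).trans (hs i t hdis).le

/-- the energy of one function is at most `An` -/
lemma le_An {ι : Type} [Fintype ι] (K w : Set ℂ) (r : ι → ℂ → ℝ) (i : ι) :
    (∫⁻ z in w \ K, (ENNReal.ofReal (r i z ^ 2) + 1)).toReal ≤ An K w r := by
  have h1 : (1:ℝ) ≤ Fintype.card ι := by
    have : Nonempty ι := ⟨i⟩
    exact_mod_cast Fintype.card_pos
  have h2 := Finset.single_le_sum (f := fun i => (∫⁻ z in w \ K,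
    (ENNReal.ofReal (r i z ^ 2) + 1)).toReal) (fun i _ => ENNReal.toReal_nonneg)
    (Finset.mem_univ i)
  have h0 : (0:ℝ) ≤ (∫⁻ z in w \ K, (ENNReal.ofReal (r i z ^ 2) + 1)).toReal :=
    ENNReal.toReal_nonneg
  unfold An
  nlinarith

end Vale.Agent.P116.AD.H720
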