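import Vale.Agent.P116.AD.H720.Glob
import Vale.Agent.P116.Cl.H805.Loc

/-!
P116, block [7]: from the local estimate `LocAD` to the adaptation statement `KF.AD` (helper720).
-/

open Set Filter Topology Metric Bornology MeasureTheory

namespace Vale.Agent.P116.AD.H720

open H906 KB PBC Slow

/-- the local estimate gives the estimate with the energy error for `Fin N` -/
theorem ad1_of_loc (h : LocAD) (N : ℕ) : ∃ C, AD1 (Fin N) C := by
  obtain ⟨C, hC, h⟩ := h N
  refine ⟨C, ?_⟩
  intro K hK hf n x hx u r hu hm hz δ hδ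
  have hp : 0 < δ / (2 * (C + 1)) := by positivity
  obtain ⟨F, hF⟩ := exists_ends hu hp
  obtain ⟨S, h1, h2, h3⟩ := h hK hf hx hu hm hz F (V := δ / (2 * (C + 1)))
    (A := An K (nd K n x) r) hF (fun i => le_An _ _ _ i) (half_pos hδ)
  refine ⟨S, h1, h2, fun i => (h3 i).trans ?_⟩
  have h4 : C * (δ / (2 * (C + 1))) ≤ δ / 2 := by
    rw [mul_div_assoc', div_le_div_iff₀ (by positivity) two_pos]
    nlinarith
  rw [mul_add]
  linarith

/-- **[7] from the local estimate** -/
theorem ad_of_loc (h : LocAD) : KF.AD := by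
  intro K hK hf n x hx ι _ u hu hm hz δ hδ
  cases nonempty_fintype ι
  set e := Fintype.equivFin ι with he
  obtain ⟨C, hC⟩ := ad1_of_loc h (Fintype.card ι)
  obtain ⟨S, h1, h2, h3⟩ := glob hC hK hf (u := fun j => u (e.symm j)) (fun j => hu _)
    (fun j => hm _) (fun i j hij => hz _ _ fun h => hij (e.symm.injective h)) hδ
  refine ⟨S, h1, h2, fun i => ?_⟩
  have := h3 (e i)
  simpa only [Equiv.symm_apply_apply] using this

end Vale.Agent.P116.AD.H720
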